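import Mathlib.Algebra.MonoidAlgebra.Defs
import Mathlib.GroupTheory.OrderOfElement
import Mathlib.RingTheory.Valuation.ValuationSubring
import Mathlib.RingTheory.Valuation.LocalSubring
import Mathlib.Analysis.Complex.Basic

/-!
Regular elements of group algebras of groups without torsion, detected by valuations
or by absolute values.
-/

namespace Vale.Agent.P201

open Finset

variable {G : Type*} [Group G]

lemma translate_invariant_eq_one (htf : ∀ g : G, IsOfFinOrder g → g = 1)
    {P : Set G} (hfin : P.Finite) (hne : P.Nonempty) {w : G}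
    (hw : ∀ y ∈ P, w * y ∈ P) : w = 1 := by
  obtain ⟨y, hy⟩ := hne
  have key : ∀ n : ℕ, w ^ n * y ∈ P := by
    intro n
    induction n with
    | zero => simpa using hy
    | succ n ih => simpa [pow_succ', mul_assoc] using hw _ ih
  have : Set.MapsTo (fun n : ℕ => w ^ n * y) Set.univ P := fun n _ => key n
  obtain ⟨m, -, n, -, hmn, heq⟩ := Set.infinite_univ.exists_ne_map_eq_of_mapsTo this hfin
  have heq' : w ^ m = w ^ n := mul_right_cancel heq
  refine htf w ?_
  by_contra hord
  exact hmn (injective_pow_iff_not_isOfFinOrder.2 hord heq')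

/-- A relation with at most two terms forces the function to vanish. -/
lemma eq_zero_of_card_le_two (htf : ∀ g : G, IsOfFinOrder g → g = 1)
    {R : Type*} [Ring R] [IsDomain R] {S : Finset G} (hne : S.Nonempty) (hcard : S.card ≤ 2)
    {u : G → G} (hu : Set.InjOn u S) {c f : G → R} (hc : ∀ a ∈ S, c a ≠ 0)
    (hf : (Function.support f).Finite)
    (heq : ∀ g, ∑ a ∈ S, c a * f (u a * g) = 0) : f = 0 := by
  classical
  by_contra hf0
  have hsupp : (Function.support f).Nonempty := Function.support_nonempty_iff.2 hf0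
  have hpos := hne.card_pos
  rcases (show S.card = 1 ∨ S.card = 2 by omega) with h | h
  · obtain ⟨a, rfl⟩ := Finset.card_eq_one.1 h
    obtain ⟨y, hy⟩ := hsupp
    have := heq ((u a)⁻¹ * y)
    simp only [Finset.sum_singleton, mul_inv_cancel_left, mul_eq_zero] at this
    exact this.elim (hc a (by simp)) hy
  · obtain ⟨a, b, hab, rfl⟩ := Finset.card_eq_two.1 h
    have hw : ∀ y ∈ Function.support f, (u b * (u a)⁻¹) * y ∈ Function.support f := by
      intro y hy hz
      have h1 := heq ((u a)⁻¹ * y)
      rw [Finset.sum_pair hab, mul_inv_cancel_left, ← mul_assoc, hz, mul_zero, add_zero,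
        mul_eq_zero] at h1
      exact h1.elim (hc a (by simp)) hy
    have h1 := translate_invariant_eq_one htf hf hsupp hw
    exact hab (hu (by simp) (by simp) (mul_inv_eq_one.1 h1)).symm

variable {K : Type*} [Field K]

/-- At most two coefficients of largest valuation: the function vanishes. -/
lemma eq_zero_of_valuation (htf : ∀ g : G, IsOfFinOrder g → g = 1)
    {S : Finset G} {u : G → G} (hu : Set.InjOn u S) {c f : G → K} (hc : ∀ a ∈ S, c a ≠ 0)
    (A : ValuationSubring K) {a₀ : G} (ha₀ : a₀ ∈ S)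
    (hmax : ∀ a ∈ S, A.valuation (c a) ≤ A.valuation (c a₀))
    {T : Finset G} (hT : T.card ≤ 2)
    (hTmem : ∀ a ∈ S, A.valuation (c a) = A.valuation (c a₀) → a ∈ T)
    (hf : (Function.support f).Finite)
    (heq : ∀ g, ∑ a ∈ S, c a * f (u a * g) = 0) : f = 0 := by
  classical
  by_contra hf0
  have hne : hf.toFinset.Nonempty := by simpa [Set.Finite.toFinset_nonempty] using hf0
  obtain ⟨x₀, hx₀, hxmax⟩ := hf.toFinset.exists_max_image (fun g => A.valuation (f g)) hne
  have hfx : f x₀ ≠ 0 := by simpa using hx₀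
  have hca := hc a₀ ha₀
  have hcA : ∀ a ∈ S, c a / c a₀ ∈ A := fun a ha =>
    (A.valuation_le_one_iff _).1 (by
      rw [map_div₀]; exact div_le_one_of_le₀ (hmax a ha) zero_le)
  have hfA : ∀ g, f g / f x₀ ∈ A := by
    intro g
    rcases eq_or_ne (f g) 0 with h | h
    · simp [h]
    refine (A.valuation_le_one_iff _).1 ?_
    rw [map_div₀]
    exact div_le_one_of_le₀ (hxmax g (by simpa using h)) zero_le
  set c' : G → A := fun a => if h : a ∈ S then ⟨_, hcA a h⟩ else 0 with hc'
  set f' : G → A := fun g => ⟨_, hfA g⟩ with hf'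
  have heq' : ∀ g, ∑ a ∈ S, c' a * f' (u a * g) = 0 := by
    intro g
    apply Subtype.val_injective
    push_cast
    have : ∑ a ∈ S, c a / c a₀ * (f (u a * g) / f x₀) = 0 := by
      simp_rw [div_mul_div_comm]
      simp_rw [div_eq_mul_inv]
      rw [← Finset.sum_mul, heq g, zero_mul]
    refine Eq.trans (Finset.sum_congr rfl fun a ha => ?_) this
    simp [hc', hf', ha]
  set π := IsLocalRing.residue A
  set S' := S.filter fun a => π (c' a) ≠ 0
  have hS' : ∀ a ∈ S, (π (c' a) ≠ 0 ↔ A.valuation (c a) = A.valuation (c a₀)) := by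
    intro a ha
    rw [Ne, IsLocalRing.residue_eq_zero_iff, A.valuation_lt_one_iff, hc']
    simp only [ha, ↓reduceDIte, map_div₀, not_lt]
    constructor
    · exact fun h => le_antisymm (hmax a ha) ((one_le_div₀ (by
        rw [zero_lt_iff]; simpa using hca)).1 h)
    · exact fun h => by rw [h, div_self]; simpa using hca
  have h0 : (fun g => π (f' g)) = 0 := by
    refine eq_zero_of_card_le_two htf (S := S') ⟨a₀, ?_⟩ ?_ (u := u) ?_
      (c := fun a => π (c' a)) ?_ (hf.subset ?_) ?_
    · exact Finset.mem_filter.2 ⟨ha₀, (hS' a₀ ha₀).2 rfl⟩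
    · refine (Finset.card_le_card fun a ha => ?_).trans hT
      obtain ⟨ha, hp⟩ := Finset.mem_filter.1 ha
      exact hTmem a ha ((hS' a ha).1 hp)
    · exact hu.mono (Finset.coe_subset.2 (Finset.filter_subset _ _))
    · exact fun a ha => (Finset.mem_filter.1 ha).2
    · intro g hg hz
      apply hg
      have : f' g = 0 := Subtype.val_injective (by simp [hf', hz])
      simp [this]
    · intro g
      rw [Finset.sum_filter_of_ne fun a _ h => left_ne_zero_of_mul h]
      simp_rw [← map_mul, ← map_sum, heq' g, map_zero]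
  have h1 := congrFun h0 x₀
  have : f' x₀ = 1 := Subtype.val_injective (by simp [hf', hfx])
  simp [this] at h1

/-- One coefficient dominates the sum of the others for an absolute value: the function
vanishes. -/
lemma eq_zero_of_absoluteValue (htf : ∀ g : G, IsOfFinOrder g → g = 1)
    {S : Finset G} {u : G → G} (hu : Set.InjOn u S) {c f : G → K} (hc : ∀ a ∈ S, c a ≠ 0)
    (ν : AbsoluteValue K ℝ) {a₀ : G} (ha₀ : a₀ ∈ S) [DecidableEq G]
    (hdom : ∑ a ∈ S.erase a₀, ν (c a) ≤ ν (c a₀))
    (hf : (Function.support f).Finite)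
    (heq : ∀ g, ∑ a ∈ S, c a * f (u a * g) = 0) : f = 0 := by
  classical
  by_contra hf0
  have hne : hf.toFinset.Nonempty := by simpa [Set.Finite.toFinset_nonempty] using hf0
  obtain ⟨x₀, hx₀, hxmax⟩ := hf.toFinset.exists_max_image (fun g => ν (f g)) hne
  have hfx : f x₀ ≠ 0 := by simpa using hx₀
  have hmax : ∀ g, ν (f g) ≤ ν (f x₀) := by
    intro g
    rcases eq_or_ne (f g) 0 with h | h
    · simp [h, ν.nonneg]
    · exact hxmax g (by simpa using h)
  rcases (S.erase a₀).eq_empty_or_nonempty with he | ⟨b, hb⟩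
  · have hS : S = {a₀} := by rw [← Finset.insert_erase ha₀, he]; rfl
    exact hf0 (eq_zero_of_card_le_two htf ⟨a₀, ha₀⟩ (by simp [hS]) hu hc hf heq)
  let P := {g | ν (f g) = ν (f x₀)}
  have hP : P.Finite := hf.subset fun g (hg : ν (f g) = _) hz => by
    simp only [hz, map_zero] at hg
    exact hfx (ν.eq_zero.1 hg.symm)
  have hw : ∀ y ∈ P, (u b * (u a₀)⁻¹) * y ∈ P := by
    intro y (hy : ν (f y) = _)
    set g := (u a₀)⁻¹ * y with hg
    have h1 := heq g
    rw [← Finset.add_sum_erase _ _ ha₀, hg, mul_inv_cancel_left, ← hg] at h1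
    have h2 : ν (c a₀) * ν (f x₀) ≤ ∑ a ∈ S.erase a₀, ν (c a) * ν (f (u a * g)) := by
      rw [← hy, ← map_mul, eq_neg_of_add_eq_zero_left h1, AbsoluteValue.map_neg]
      exact (ν.sum_le _ _).trans_eq (by simp)
    have hle : ∀ a ∈ S.erase a₀, ν (c a) * ν (f (u a * g)) ≤ ν (c a) * ν (f x₀) :=
      fun a _ => mul_le_mul_of_nonneg_left (hmax _) (ν.nonneg _)
    have h3 : ∑ a ∈ S.erase a₀, ν (c a) * ν (f (u a * g)) =
        ∑ a ∈ S.erase a₀, ν (c a) * ν (f x₀) := by
      refine le_antisymm (Finset.sum_le_sum hle) (le_trans ?_ h2)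
      rw [← Finset.sum_mul]
      exact mul_le_mul_of_nonneg_right hdom (ν.nonneg _)
    have h4 := (Finset.sum_eq_sum_iff_of_le hle).1 h3 b hb
    show ν (f (u b * (u a₀)⁻¹ * y)) = ν (f x₀)
    rw [mul_assoc, ← hg]
    exact mul_left_cancel₀ (ν.ne_zero (hc b (Finset.mem_of_mem_erase hb))) h4
  have h1 := translate_invariant_eq_one htf hP ⟨x₀, rfl⟩ hw
  exact Finset.ne_of_mem_erase hb (hu (Finset.mem_of_mem_erase hb) ha₀ (mul_inv_eq_one.1 h1))

/-- Translation of a zero product into the functional equation, for both sides. -/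
lemma regular_of_kernel {α β : MonoidAlgebra K G}
    (H : ∀ (u : G → G) (f : G → K), Set.InjOn u α.coeff.support → (Function.support f).Finite →
      (∀ g, ∑ a ∈ α.coeff.support, α.coeff a * f (u a * g) = 0) → f = 0)
    (h : α * β = 0 ∨ β * α = 0) : β = 0 := by
  rcases h with h | h
  · have := H (fun a => a⁻¹) β.coeff inv_injective.injOn
      (β.coeff.support.finite_toSet.subset fun g hg => by simpa using hg) fun g => by
        have := congrArg (fun z : MonoidAlgebra K G => z.coeff g) h
        simpa [MonoidAlgebra.coeff_mul_apply_left, Finsupp.sum] using this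
    exact MonoidAlgebra.ext (Finsupp.ext fun g => by simpa using congrFun this g)
  · have := H id (fun g => β.coeff g⁻¹) (Set.injOn_id _)
      ((β.coeff.support.finite_toSet.image (fun g => g⁻¹)).subset fun g hg =>
        ⟨g⁻¹, by simpa using hg, inv_inv g⟩) fun g => by
        have := congrArg (fun z : MonoidAlgebra K G => z.coeff g⁻¹) h
        simpa [MonoidAlgebra.coeff_mul_apply_right, Finsupp.sum, mul_comm, mul_inv_rev] using this
    exact MonoidAlgebra.ext (Finsupp.ext fun g => by simpa using congrFun this g⁻¹)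

lemma isIntegral_int_of_forall_valuationSubring {x : K} (h : ∀ A : ValuationSubring K, x ∈ A) :
    IsIntegral ℤ x := by
  have hmem : x ∈ (⨅ V : {V : ValuationSubring K // (∅ : Set K) ⊆ V.toSubring},
      V.1.toSubring) := Subring.mem_iInf.2 fun V => h V.1
  rw [iInf_valuationSubring_superset] at hmem
  have hx : IsIntegral (Subring.closure (∅ : Set K)) x := hmem
  let e : ℤ →+* Subring.closure (∅ : Set K) := Int.castRingHom _
  have he : Function.Surjective e := by
    rintro ⟨y, hy⟩
    obtain ⟨n, rfl⟩ : y ∈ (Int.castRingHom K).range := (Subring.closure_le.2 (by simp)) hy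
    exact ⟨n, Subtype.val_injective (by simp [e])⟩
  obtain ⟨p, hp, hpx⟩ := hx
  have hlift : p ∈ Polynomial.lifts e := by
    obtain ⟨q, hq⟩ := Polynomial.map_surjective e he p
    exact ⟨q, hq⟩
  obtain ⟨q, hqp, -, hq⟩ := Polynomial.lifts_and_degree_eq_and_monic hlift hp
  refine ⟨q, hq, ?_⟩
  rw [← hqp, Polynomial.eval₂_map] at hpx
  rwa [RingHom.ext_int (algebraMap ℤ K) ((algebraMap (Subring.closure (∅ : Set K)) K).comp e)]

end Vale.Agent.P201
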